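import Vale.Agent.P365.X3.Hyp
import Vale.Agent.P365.InfB.Box

set_option linter.all false

/-!
# P365 / X3 / Crit: the finite volume criterion on the square lattice.
-/

namespace P365X

open MeasureTheory ProbabilityTheory Complex Matrix Filter
open P365L P365L.Comp
open scoped ENNReal

/-! ### transport -/

theorem EG_block {ι κ : Type} [Fintype ι] [DecidableEq ι] [Fintype κ] [DecidableEq κ]
    {A : Matrix ι ι ℝ} {ζ : ℂ} (s : ℝ) (hA : A.IsSymm) (hζ : 0 < ζ.im) (ν : Measure ℝ)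
    [IsProbabilityMeasure ν] (e : κ ↪ ι) (hD : Dec A (fun x => x ∈ Set.range e)) (a b : κ) :
    EG A ν ζ s (e a) (e b) = EG (A.submatrix e e) ν ζ s a b := by
  unfold EG
  rw [← (measurePreserving_marg ν e e.injective).lintegral_comp (measurable_H s a b)]
  refine lintegral_congr fun v => ?_
  rw [Gr_block hA (Wv_neg hζ v) e e.injective hD a b]
  rfl

variable {ζ : ℂ} {s : ℝ} {ν : Measure ℝ}

theorem ER_congr {X S S' B B' : Finset Site} (hS : ∀ x ∈ X, x ∈ S ↔ x ∈ S')
    (hB : ∀ x ∈ X, x ∈ B ↔ x ∈ B') : ER ν ζ s X S B = ER ν ζ s X S' B' := by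
  unfold ER
  have h2 : sub X S = sub X S' := by
    ext x
    rw [mem_sub, mem_sub, hS x x.2]
  have h3 : sub X B = sub X B' := by
    ext x
    rw [mem_sub, mem_sub, hB x x.2]
  rw [h2, h3]

theorem ER_single {X : Finset Site} (x y : X) : ER ν ζ s X {(x : Site)} {(y : Site)} =
    EG (AF X) ν ζ s x y := by
  have hs : ∀ z : X, sub X {(z : Site)} = {z} := by
    intro z
    ext v
    rw [mem_sub, Finset.mem_singleton, Finset.mem_singleton, Subtype.ext_iff]
  unfold ER
  rw [hs, hs, Finset.sum_singleton, Finset.sum_singleton]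

/-- the cut operator in the region `X` inside `R` -/
theorem EG_cut (hζ : 0 < ζ.im) [IsProbabilityMeasure ν] {R X : Finset Site} (hR : R ⊆ X)
    (a b : R) : EG (cut (AF X) (sub X R)) ν ζ s (incl hR a) (incl hR b) =
      EG (AF R) ν ζ s a b := by
  have hsym := cut_symm (AF_symm X) (sub X R)
  have hD := cut_dec (AF X) (sub X R)
  have hrange : (fun x => x ∈ Set.range (incl hR)) = fun x : X => x ∈ sub X R := by
    funext x
    apply propext
    constructor
    · rintro ⟨y, rfl⟩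
      exact mem_sub.2 y.2
    · intro h
      exact ⟨⟨x, mem_sub.1 h⟩, rfl⟩
  have hD' : Dec (cut (AF X) (sub X R)) (fun x => x ∈ Set.range (incl hR)) := by
    rw [hrange]
    exact hD
  rw [EG_block s hsym hζ ν (incl hR) hD' a b]
  congr 1
  ext x y
  rw [Matrix.submatrix_apply, cut, if_pos]
  · rfl
  · exact iff_of_true (mem_sub.2 x.2) (mem_sub.2 y.2)

theorem sum_cut (hζ : 0 < ζ.im) [IsProbabilityMeasure ν] {R X : Finset Site} (hR : R ⊆ X)
    (x : R) {B : Finset Site} (hB : B ⊆ R) :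
    ∑ u ∈ sub X B, EG (cut (AF X) (sub X R)) ν ζ s (incl hR x) u =
      ER ν ζ s R {(x : Site)} B := by
  have hs : sub R {(x : Site)} = {x} := by
    ext v
    rw [mem_sub, Finset.mem_singleton, Finset.mem_singleton, Subtype.ext_iff]
  unfold ER
  rw [hs, Finset.sum_singleton]
  have e1 : sub X B = (sub R B).map (incl hR) := by
    ext z
    rw [mem_sub, Finset.mem_map]
    constructor
    · intro h
      exact ⟨⟨z, hB h⟩, mem_sub.2 h, rfl⟩
    · rintro ⟨y, hy, rfl⟩
      exact (mem_sub.1 hy : (y : Site) ∈ B)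
  rw [e1, Finset.sum_map]
  exact Finset.sum_congr rfl fun b _ => EG_cut hζ hR x b

/-- translation invariance -/
theorem ER_tr (hζ : 0 < ζ.im) [IsProbabilityMeasure ν] (z : Site) (X S B : Finset Site) :
    ER ν ζ s (tr z X) (tr z S) (tr z B) = ER ν ζ s X S B := by
  have hmem : ∀ x : Site, ∀ Y : Finset Site, (x.1 + z.1, x.2 + z.2) ∈ tr z Y ↔ x ∈ Y := by
    intro x Y
    rw [mem_tr]
    simp
  obtain ⟨e, he⟩ : ∃ e : X ↪ tr z X, ∀ x : X,
      ((e x : tr z X) : Site) = ((x : Site).1 + z.1, (x : Site).2 + z.2) := by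
    refine ⟨⟨fun x => ⟨((x : Site).1 + z.1, (x : Site).2 + z.2), (hmem x X).2 x.2⟩, ?_⟩, ?_⟩
    · intro x y h
      have h1 := congrArg (fun q : tr z X => (q : Site)) h
      simp only [Prod.mk.injEq, add_left_inj] at h1
      exact Subtype.ext (Prod.ext h1.1 h1.2)
    · intro x
      rfl
  have hsurj : ∀ y : tr z X, ∃ x : X, e x = y := by
    intro y
    refine ⟨⟨((y : Site).1 - z.1, (y : Site).2 - z.2), mem_tr.1 y.2⟩, ?_⟩
    apply Subtype.ext
    rw [he]
    simp
  have hD : Dec (AF (tr z X)) (fun x => x ∈ Set.range e) := by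
    intro x y h
    exfalso
    have h1 : x ∈ Set.range e := hsurj x
    have h2 : y ∈ Set.range e := hsurj y
    tauto
  have hmap : ∀ Y : Finset Site, sub (tr z X) (tr z Y) = (sub X Y).map e := by
    intro Y
    ext y
    rw [Finset.mem_map, mem_sub]
    constructor
    · intro hy
      obtain ⟨x, rfl⟩ := hsurj y
      rw [he, hmem] at hy
      exact ⟨x, mem_sub.2 hy, rfl⟩
    · rintro ⟨x, hx, rfl⟩
      rw [he, hmem]
      exact mem_sub.1 hx
  have hA : (AF (tr z X)).submatrix e e = AF X := by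
    ext x y
    rw [Matrix.submatrix_apply]
    unfold AF adj
    rw [he, he]
    simp
  unfold ER
  rw [hmap, hmap, Finset.sum_map]
  refine Finset.sum_congr rfl fun a _ => ?_
  rw [Finset.sum_map]
  refine Finset.sum_congr rfl fun b _ => ?_
  rw [EG_block s (AF_symm _) hζ ν e hD, hA]

theorem AF_row_card (X : Finset Site) (x : X) :
    (Finset.univ.filter fun y => AF X x y ≠ 0).card ≤ 4 := by
  refine le_trans ?_ (card_nbr (x : Site))
  refine Finset.card_le_card_of_injOn (fun y => (y : Site)) ?_ ?_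
  · intro y hy
    have := (Finset.mem_filter.1 (Finset.mem_coe.1 hy)).2
    exact mem_nbr_of_adj this
  · intro y _ z _ h
    exact Subtype.ext h

theorem card_sub_le (X Y : Finset Site) : (sub X Y).card ≤ Y.card := by
  refine Finset.card_le_card_of_injOn (fun v => (v : Site)) ?_ ?_
  · intro v hv
    have := mem_sub.1 (Finset.mem_coe.1 hv)
    exact this
  · intro v _ u _ h
    exact Subtype.ext h

/-- the geometric factor of the criterion -/
noncomputable def TH (C : ℝ≥0∞) (r : ℕ) : ℝ≥0∞ :=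
  16 * C * (1 + 4 * C * (8 * r + 20 : ℕ)) * (8 * r + 20 : ℕ)

/-- one step for single-site roots -/
theorem site_step [IsProbabilityMeasure ν] {C : ℝ≥0∞} (H : Hyp ν s C) (hζ : 0 < ζ.im)
    (hs : 0 < s) (hs1 : s ≤ 1) {X : Finset Site} {x y : Site} {r : ℕ} (hX : Bl x r ⊆ X)
    (hyX : y ∈ X) (hy : r + 1 < ds x y) {α : ℝ≥0∞}
    (ha : ∀ z ∈ X, ds z x ≤ r + 2 → ER ν ζ s X {z} {y} ≤ α) :
    ER ν ζ s X {x} {y} ≤ TH C r * tau ν ζ s r * α := by
  have hxB : x ∈ Bl x r := by
    rw [mem_Bl, ds_self]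
    exact Nat.zero_le _
  obtain ⟨x0, hx0⟩ : ∃ x0 : Bl x r, (x0 : Site) = x := ⟨⟨x, hxB⟩, rfl⟩
  obtain ⟨u, hu⟩ : ∃ u : X, u = incl hX x0 := ⟨_, rfl⟩
  have hu' : (u : Site) = x := by
    rw [hu]
    exact hx0
  obtain ⟨w, hw⟩ : ∃ w : X, (w : Site) = y := ⟨⟨y, hyX⟩, rfl⟩
  have h0 := step (T := sub X (Sh x r)) (S := sub X (Sh x (r + 2))) (R1 := sub X (Bl x r))
    (R2 := sub X (Bl x (r + 1))) H (AF_symm X) hζ hs hs1 (fun a b => adj_eq_one_or _ _)
    (AF_row_card X)
    (fun z hz => by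
      rw [mem_sub, mem_Bl] at hz ⊢
      omega)
    (fun a ha b hab => by
      rw [mem_sub, mem_Bl] at ha ⊢
      have := ds_adj (z := x) hab
      omega)
    (fun a ha b hb hab => by
      rw [mem_sub, mem_Bl] at ha hb
      rw [mem_sub, mem_Sh]
      have := ds_adj (z := x) hab
      omega)
    (fun a ha b hb hab => by
      rw [mem_sub, mem_Bl] at ha hb
      rw [mem_sub, mem_Sh]
      have := ds_adj (z := x) hab
      omega)
    (x := u) (y := w) (by
      rw [mem_sub, hu']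
      exact hxB)
    (by
      rw [mem_sub, hw, mem_Bl, ds_comm]
      omega)
    (α := α) (fun z hz => by
      have h1 := ha z z.2 (by
        rcases hz with ⟨h1, _⟩ | h1
        · rw [mem_sub, mem_Bl] at h1
          omega
        · rw [mem_sub, mem_Sh] at h1
          omega)
      rw [← hw, ER_single] at h1
      exact h1)
  have h1 : ∑ z ∈ sub X (Sh x r), EG (cut (AF X) (sub X (Bl x r))) ν ζ s u z =
      tau ν ζ s r := by
    rw [hu, sum_cut hζ hX x0 (fun z hz => by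
      rw [mem_Sh] at hz
      rw [mem_Bl]
      omega), hx0]
    unfold tau
    rw [← ER_tr hζ x (Bl 0 r) {0} (Sh 0 r), tr_Bl, tr_Sh, tr_singleton]
  have h2 : ER ν ζ s X {x} {y} = EG (AF X) ν ζ s u w := by
    rw [← hu', ← hw, ER_single]
  rw [h2]
  refine h0.trans ?_
  rw [h1]
  have h3 : ((sub X (Sh x (r + 2))).card : ℝ≥0∞) ≤ ((8 * r + 20 : ℕ) : ℝ≥0∞) := by
    have h4 : (sub X (Sh x (r + 2))).card ≤ 8 * r + 20 :=
      (card_sub_le _ _).trans ((card_Sh_le _ _).trans (by omega))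
    exact_mod_cast h4
  unfold TH
  gcongr

/-- a priori bound in a region -/
theorem EG_le [IsProbabilityMeasure ν] {C : ℝ≥0∞} (H : Hyp ν s C) (hζ : 0 < ζ.im) (hs : 0 < s)
    {X : Finset Site} (x y : X) : EG (AF X) ν ζ s x y ≤ C := by
  rw [EG_eq hs.le, ← lintegral_lmarginal ν {x, y} (measurable_gg s x y)]
  calc ∫⁻ v, (∫⋯∫⁻_{x, y}, gg (AF X) ζ s x y ∂fun _ => ν) v ∂(Measure.pi fun _ : X => ν)
      ≤ ∫⁻ _v : X → ℝ, C ∂(Measure.pi fun _ : X => ν) :=
        lintegral_mono fun v => H.ap1 (AF X) (AF_symm X) ζ hζ x y v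
    _ = C := by simp

/-- the decay recursion -/
theorem site_decay [IsProbabilityMeasure ν] {C : ℝ≥0∞} (H : Hyp ν s C) (hζ : 0 < ζ.im)
    (hs : 0 < s) (hs1 : s ≤ 1) {X : Finset Site} {y : Site} (hyX : y ∈ X) {r : ℕ}
    (hF : TH C r * tau ν ζ s r ≤ 1 / 2) (n : ℕ) :
    ∀ x, x ∈ X → Bl x (n * (r + 2)) ⊆ X → n * (r + 2) ≤ ds x y →
      ER ν ζ s X {x} {y} ≤ (1 / 2) ^ n * C := by
  induction n with
  | zero =>
    intro x hxX _ _
    rw [pow_zero, one_mul]
    obtain ⟨u, hu⟩ : ∃ u : X, (u : Site) = x := ⟨⟨x, hxX⟩, rfl⟩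
    obtain ⟨v, hv⟩ : ∃ v : X, (v : Site) = y := ⟨⟨y, hyX⟩, rfl⟩
    rw [← hu, ← hv, ER_single]
    exact EG_le H hζ hs u v
  | succ n ih =>
    intro x hxX hB hd
    have hr : (n + 1) * (r + 2) = n * (r + 2) + (r + 2) := by ring
    have h1 : Bl x r ⊆ X := fun z hz => hB (by
      rw [mem_Bl] at hz ⊢
      rw [hr]
      omega)
    have h2 : r + 1 < ds x y := by
      rw [hr] at hd
      have := Nat.zero_le (n * (r + 2))
      omega
    have h3 : ∀ z ∈ X, ds z x ≤ r + 2 → ER ν ζ s X {z} {y} ≤ (1 / 2) ^ n * C := by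
      intro z hz hzx
      refine ih z hz (fun v hv => hB ?_) ?_
      · rw [mem_Bl] at hv ⊢
        have := ds_triangle v z x
        rw [hr]
        omega
      · have := ds_triangle x z y
        rw [ds_comm x z] at this
        rw [hr] at hd
        omega
    refine (site_step H hζ hs hs1 h1 hyX h2 h3).trans ?_
    calc TH C r * tau ν ζ s r * ((1 / 2) ^ n * C) ≤ 1 / 2 * ((1 / 2) ^ n * C) := by gcongr
      _ = (1 / 2) ^ (n + 1) * C := by ring

/-- **THE FINITE VOLUME CRITERION**: smallness of the boundary sum at one scale implies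
exponential decay in the boxes `Lam M`; rate and constants depend only on `C` and `r` -/
theorem crit [IsProbabilityMeasure ν] {C : ℝ≥0∞} (hC : C ≠ ∞) (H : Hyp ν s C) (hζ : 0 < ζ.im)
    (hs : 0 < s) (hs1 : s ≤ 1) {r : ℕ} (hF : TH C r * tau ν ζ s r ≤ 1 / 2) (y : Site) (M : ℕ)
    (hM : 2 * ds 0 y ≤ M) :
    ER ν ζ s (Lam M) {0} {y} ≤ ENNReal.ofReal (2 * C.toReal *
      Real.exp (-(Real.log 2 / (2 * (r + 2))) * (y.1.natAbs + y.2.natAbs : ℕ))) := by
  have hyX : y ∈ Lam M := by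
    rw [mem_Lam]
    have h1 : ds 0 y = max y.1.natAbs y.2.natAbs := by
      unfold ds
      simp
    rw [h1] at hM
    omega
  have h0X : (0 : Site) ∈ Lam M := by
    rw [mem_Lam]
    simp
  obtain ⟨n, hn⟩ : ∃ n, n = ds 0 y / (r + 2) := ⟨_, rfl⟩
  have hn1 : n * (r + 2) ≤ ds 0 y := by
    rw [hn]
    exact Nat.div_mul_le_self _ _
  have hn2 : ds 0 y < (n + 1) * (r + 2) := by
    rw [hn, add_mul, one_mul, mul_comm]
    have := Nat.lt_mul_div_succ (ds 0 y) (show 0 < r + 2 by omega)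
    rw [mul_add, mul_one] at this
    exact this
  have hB : Bl 0 (n * (r + 2)) ⊆ Lam M := by
    intro z hz
    rw [mem_Bl] at hz
    have h1 : ds z 0 = max z.1.natAbs z.2.natAbs := by
      unfold ds
      simp
    rw [mem_Lam]
    rw [h1] at hz
    omega
  refine (site_decay H hζ hs hs1 hyX hF n 0 h0X hB hn1).trans ?_
  have hhalf : ((1 : ℝ≥0∞) / 2) ^ n = ENNReal.ofReal ((1 / 2) ^ n) := by
    rw [ENNReal.ofReal_pow (by norm_num), one_div, one_div,
      ENNReal.ofReal_inv_of_pos (by norm_num)]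
    norm_num
  have hCr : C = ENNReal.ofReal C.toReal := (ENNReal.ofReal_toReal hC).symm
  have hC0 : 0 ≤ C.toReal := ENNReal.toReal_nonneg
  rw [hhalf]
  conv_lhs => rw [hCr]
  rw [← ENNReal.ofReal_mul (by positivity)]
  refine ENNReal.ofReal_le_ofReal ?_
  have h5 : ((1 : ℝ) / 2) ^ n ≤
      2 * Real.exp (-(Real.log 2 / (2 * (r + 2))) * (y.1.natAbs + y.2.natAbs : ℕ)) := by
    have h6 : ((1 : ℝ) / 2) ^ n = Real.exp (-(n * Real.log 2)) := by
      rw [Real.exp_neg, mul_comm, Real.exp_mul, Real.exp_log (by norm_num), Real.rpow_natCast,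
        one_div, inv_pow]
    have h7 : (2 : ℝ) = Real.exp (Real.log 2) := (Real.exp_log (by norm_num)).symm
    rw [h6]
    nth_rewrite 2 [h7]
    rw [← Real.exp_add]
    refine Real.exp_le_exp.2 ?_
    have hlog : 0 < Real.log 2 := Real.log_pos (by norm_num)
    have h8 : ((y.1.natAbs + y.2.natAbs : ℕ) : ℝ) ≤ 2 * ((n + 1) * (r + 2)) := by
      have h9 : y.1.natAbs + y.2.natAbs ≤ 2 * ((n + 1) * (r + 2)) := by
        have h10 : ds 0 y = max y.1.natAbs y.2.natAbs := by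
          unfold ds
          simp
        rw [h10] at hn2
        omega
      exact_mod_cast h9
    have h11 : Real.log 2 / (2 * ((r : ℝ) + 2)) * ((y.1.natAbs + y.2.natAbs : ℕ) : ℝ) ≤
        Real.log 2 / (2 * ((r : ℝ) + 2)) * (2 * ((n + 1) * (r + 2))) :=
      mul_le_mul_of_nonneg_left h8 (by positivity)
    have h12 : Real.log 2 / (2 * ((r : ℝ) + 2)) * (2 * ((n + 1) * (r + 2))) =
        (n + 1) * Real.log 2 := by
      field_simp
    rw [neg_mul]
    linarith
  calc (1 / 2) ^ n * C.toReal ≤ (2 * Real.exp (-(Real.log 2 / (2 * (r + 2))) *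
        (y.1.natAbs + y.2.natAbs : ℕ))) * C.toReal := mul_le_mul_of_nonneg_right h5 hC0
    _ = _ := by ring

/-- in the notation of `FMboxR` -/
theorem ER_Lam (ζ : ℂ) (M : ℕ) {y : Site} (hy : y ∈ Lam M) :
    ER ν ζ s (Lam M) {0} {y} =
      ∫⁻ v, ENNReal.ofReal (‖P365L.InfB.GR (AL M) v ζ ⟨y, hy⟩ (oL M)‖ ^ s)
        ∂(Measure.pi fun _ : Lam M => ν) := by
  have h1 : ER ν ζ s (Lam M) {0} {y} = EG (AF (Lam M)) ν ζ s (oL M) ⟨y, hy⟩ :=
    ER_single (oL M) ⟨y, hy⟩
  rw [h1, EG_comm (AF_symm _)]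
  rfl

/-- the threshold of the criterion for the class `Reg C0 c0` -/
noncomputable def THX (C0 c0 s : ℝ) (r : ℕ) : ℝ≥0∞ := TH (CX C0 c0 s) r

theorem THX_ne_top {C0 c0 s : ℝ} (hc : 0 < c0) (hs : s < 1 / 4) (r : ℕ) :
    THX C0 c0 s r ≠ ∞ := by
  have h := CX_ne_top (C0 := C0) hc hs
  unfold THX TH
  finiteness

/-- **X3, final form**: for a regular law, smallness of the boundary sum of one ball, uniformly for
small `η`, gives the exponential decay `FMboxR` at the energy `E` -/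
theorem FMboxR_of_tau {C0 c0 : ℝ} (h : P365L.X.Reg C0 c0 ν) (hs : 0 < s) (hs1 : s < 1 / 4)
    (E : ℝ) (r : ℕ) {η₀ : ℝ} (hη₀ : 0 < η₀)
    (hF : ∀ η : ℝ, 0 < η → η ≤ η₀ → THX C0 c0 s r * tau ν (E + η * I) s r ≤ 1 / 2) :
    P365L.InfB.FMboxR ν E := by
  have := h.prob
  refine ⟨s, 2 * (CX C0 c0 s).toReal, Real.log 2 / (2 * (r + 2)), η₀, hs, by linarith,
    by positivity, hη₀, fun η hη hη1 y => ?_⟩
  filter_upwards [eventually_ge_atTop (2 * ds 0 y)] with M hM hy
  have hζ : (0 : ℝ) < ((E : ℂ) + η * I).im := by simpa using hη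
  have h1 := crit (CX_ne_top h.c0pos hs1) (Hyp.of_reg h hs hs1) hζ hs (by linarith)
    (hF η hη hη1) y M hM
  rw [ER_Lam _ M hy] at h1
  exact h1

end P365X
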