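import Vale.Agent.P365.Comp.Geo

set_option linter.all false

/-!
# P365 / X3 / Defs: fractional moments for a general single-site law.
-/

namespace P365X

open MeasureTheory ProbabilityTheory Complex Matrix Filter
open P365L P365L.Comp
open scoped ENNReal

variable {ι : Type*} [Fintype ι] [DecidableEq ι]

/-- real potential minus the complex energy -/
noncomputable def Wv {ι : Type*} (ζ : ℂ) (v : ι → ℝ) : ι → ℂ := fun x => (v x : ℂ) - ζ

omit [Fintype ι] [DecidableEq ι] in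
theorem Wv_im (ζ : ℂ) (v : ι → ℝ) (x : ι) : (Wv ζ v x).im = -ζ.im := by
  simp [Wv]

omit [Fintype ι] [DecidableEq ι] in
theorem Wv_neg {ζ : ℂ} (hζ : 0 < ζ.im) (v : ι → ℝ) (x : ι) : (Wv ζ v x).im < 0 := by
  rw [Wv_im]
  linarith

/-- `E |G_ab|^s` for iid potentials with law `ν` -/
noncomputable def EG {ι : Type*} [Fintype ι] [DecidableEq ι] (A : Matrix ι ι ℝ) (ν : Measure ℝ)
    (ζ : ℂ) (s : ℝ) (a b : ι) : ℝ≥0∞ :=
  ∫⁻ v, ENNReal.ofReal (‖Gr A (Wv ζ v) a b‖ ^ s) ∂(Measure.pi fun _ : ι => ν)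

/-- `∑ E |G^X_ab|^s` for the Dirichlet region `X` -/
noncomputable def ER (ν : Measure ℝ) (ζ : ℂ) (s : ℝ) (X S B : Finset Site) : ℝ≥0∞ :=
  ∑ a ∈ sub X S, ∑ b ∈ sub X B, EG (AF X) ν ζ s a b

/-- the finite volume quantity: centre to boundary of the ball of radius `r` -/
noncomputable def tau (ν : Measure ℝ) (ζ : ℂ) (s : ℝ) (r : ℕ) : ℝ≥0∞ :=
  ER ν ζ s (Bl 0 r) {0} (Sh 0 r)

/-- regularity of the single-site law: upper bound by a multiple of the standard Cauchy law, lower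
bound by a multiple of Lebesgue measure on `[-1,1]` -/
def Reg (ν : Measure ℝ) (K c : ℝ) : Prop :=
  ν ≤ ENNReal.ofReal K • P365L.nu ∧
    ENNReal.ofReal c • (volume : Measure ℝ).restrict (Set.Icc (-1) 1) ≤ ν

/-- exponential decay of the fractional moments in the boxes `Lam M` near the energy `E`, for iid
potentials with law `ν` -/
def FMb (ν : Measure ℝ) (E : ℝ) : Prop :=
  ∃ s C c₀ η₀ : ℝ, 0 < s ∧ s ≤ 1 ∧ 0 < c₀ ∧ 0 < η₀ ∧ ∀ η : ℝ, 0 < η → η ≤ η₀ → ∀ y : Site,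
    ∀ᶠ M in atTop, ∀ hy : y ∈ Lam M,
      ∫⁻ v, ENNReal.ofReal
        (‖Gr (AL M) (fun x => (v x : ℂ) - (E + η * I)) ⟨y, hy⟩ (oL M)‖ ^ s)
          ∂(Measure.pi fun _ : Lam M => ν) ≤
        ENNReal.ofReal (C * Real.exp (-c₀ * (y.1.natAbs + y.2.natAbs : ℕ)))

/-! ### measurability -/

variable {A : Matrix ι ι ℝ} {ζ : ℂ} {s : ℝ}

theorem measurable_GrWv (a b : ι) : Measurable fun v : ι → ℝ => Gr A (Wv ζ v) a b := by
  refine measurable_Gr (fun v : ι → ℝ => Wv ζ v) (fun z => ?_) a b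
  unfold Wv
  exact (Complex.measurable_ofReal.comp (measurable_pi_apply z)).sub_const _

theorem measurable_H (s : ℝ) (a b : ι) :
    Measurable fun v : ι → ℝ => ENNReal.ofReal (‖Gr A (Wv ζ v) a b‖ ^ s) :=
  ((measurable_GrWv a b).norm.pow_const s).ennreal_ofReal

theorem EG_comm (hA : A.IsSymm) (ν : Measure ℝ) (a b : ι) : EG A ν ζ s a b = EG A ν ζ s b a := by
  unfold EG
  simp_rw [Gr_symm hA a b]

end P365X
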