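import Vale.Agent.P365.X3.Marg

set_option linter.all false

/-!
# P365 / X3 / Det: the resolvent expansions at a cut.
-/

namespace P365X

open MeasureTheory ProbabilityTheory Complex Matrix
open P365L P365L.Comp
open scoped ENNReal

variable {ι : Type*} [Fintype ι] [DecidableEq ι] {A : Matrix ι ι ℝ} {W : ι → ℂ} {s : ℝ}

/-- the bonds which are cut -/
noncomputable def bd (A : Matrix ι ι ℝ) (R : Finset ι) (x y : ι) : ℝ :=
  if (x ∈ R ↔ y ∈ R) then 0 else A x y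

theorem Kmat_sub_cut (R : Finset ι) (x y : ι) :
    (Kmat A W - Kmat (cut A R) W) x y = (bd A R x y : ℂ) := by
  unfold Kmat
  rw [Matrix.sub_apply, Matrix.add_apply, Matrix.add_apply, Matrix.map_apply, Matrix.map_apply,
    add_sub_add_right_eq_sub]
  unfold cut bd
  split_ifs <;> simp

/-- resolvent identity for the cut operator, entrywise -/
theorem Gr_cut (hA : A.IsSymm) (hW : ∀ x, (W x).im < 0) (R : Finset ι) (a b : ι) :
    Gr (cut A R) W a b =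
      Gr A W a b + ∑ w, Gr (cut A R) W a w * ∑ w', (bd A R w w' : ℂ) * Gr A W w' b := by
  conv_lhs => rw [Gr_sub hA (cut_symm hA R) hW hW]
  rw [Matrix.add_apply, Matrix.mul_apply]
  congr 1
  refine Finset.sum_congr rfl fun w _ => ?_
  rw [Matrix.mul_apply]
  congr 1
  refine Finset.sum_congr rfl fun w' _ => ?_
  rw [Kmat_sub_cut]

/-- subadditivity of `x ↦ x^s` for finite sums -/
theorem sum_rpow_le {κ : Type*} (S : Finset κ) (f : κ → ℝ≥0∞) (hs : 0 < s) (hs1 : s ≤ 1) :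
    (∑ i ∈ S, f i) ^ s ≤ ∑ i ∈ S, f i ^ s := by
  classical
  induction S using Finset.induction_on with
  | empty => simp [hs]
  | insert i S hi ih =>
    rw [Finset.sum_insert hi, Finset.sum_insert hi]
    exact (ENNReal.rpow_add_le_add_rpow _ _ hs.le hs1).trans (by gcongr)

/-- the weights of the cut bonds -/
noncomputable def bt (A : Matrix ι ι ℝ) (R : Finset ι) (s : ℝ) (x y : ι) : ℝ≥0∞ :=
  ‖(bd A R x y : ℂ)‖ₑ ^ s

theorem enorm_sum_rpow_le {κ : Type*} (S : Finset κ) (f : κ → ℂ) (hs : 0 < s) (hs1 : s ≤ 1) :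
    ‖∑ i ∈ S, f i‖ₑ ^ s ≤ ∑ i ∈ S, ‖f i‖ₑ ^ s :=
  (ENNReal.rpow_le_rpow (enorm_sum_le _ _) hs.le).trans (sum_rpow_le S _ hs hs1)

theorem enorm_mul_rpow (x y : ℂ) (hs : 0 ≤ s) : ‖x * y‖ₑ ^ s = ‖x‖ₑ ^ s * ‖y‖ₑ ^ s := by
  rw [enorm_mul, ENNReal.mul_rpow_of_nonneg _ _ hs]

theorem corr_le (hA : A.IsSymm) (hW : ∀ x, (W x).im < 0) (hs : 0 < s) (hs1 : s ≤ 1) (R : Finset ι)
    (a b : ι) :
    ‖∑ w, Gr (cut A R) W a w * ∑ w', (bd A R w w' : ℂ) * Gr A W w' b‖ₑ ^ s ≤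
      ∑ w, ∑ w', bt A R s w w' * (‖Gr (cut A R) W a w‖ₑ ^ s * ‖Gr A W w' b‖ₑ ^ s) := by
  refine (enorm_sum_rpow_le _ _ hs hs1).trans (Finset.sum_le_sum fun w _ => ?_)
  rw [enorm_mul_rpow _ _ hs.le]
  calc ‖Gr (cut A R) W a w‖ₑ ^ s * ‖∑ w', (bd A R w w' : ℂ) * Gr A W w' b‖ₑ ^ s
      ≤ ‖Gr (cut A R) W a w‖ₑ ^ s * ∑ w', ‖(bd A R w w' : ℂ) * Gr A W w' b‖ₑ ^ s := by
        gcongr
        exact enorm_sum_rpow_le _ _ hs hs1
    _ = _ := by
        rw [Finset.mul_sum]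
        refine Finset.sum_congr rfl fun w' _ => ?_
        rw [enorm_mul_rpow _ _ hs.le, bt]
        ring

/-- expansion of `G` across the cut: `a ∈ R`, `b ∉ R` (or conversely) -/
theorem expand (hA : A.IsSymm) (hW : ∀ x, (W x).im < 0) (hs : 0 < s) (hs1 : s ≤ 1) (R : Finset ι)
    {a b : ι} (hab : ¬ (a ∈ R ↔ b ∈ R)) :
    ‖Gr A W a b‖ₑ ^ s ≤
      ∑ w, ∑ w', bt A R s w w' * (‖Gr (cut A R) W a w‖ₑ ^ s * ‖Gr A W w' b‖ₑ ^ s) := by
  have h1 := Gr_cut (W := W) hA hW R a b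
  have h2 : Gr (cut A R) W a b = 0 := Gr_dec (cut_symm hA R) hW (cut_dec A R) (by tauto)
  rw [h2] at h1
  have h3 : ‖Gr A W a b‖ₑ =
      ‖∑ w, Gr (cut A R) W a w * ∑ w', (bd A R w w' : ℂ) * Gr A W w' b‖ₑ := by
    rw [← enorm_neg (Gr A W a b)]
    congr 1
    exact neg_eq_of_add_eq_zero_right h1.symm
  rw [h3]
  exact corr_le hA hW hs hs1 R a b

/-- back from the cut operator to the full one -/
theorem back (hA : A.IsSymm) (hW : ∀ x, (W x).im < 0) (hs : 0 < s) (hs1 : s ≤ 1) (R : Finset ι)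
    (a b : ι) :
    ‖Gr (cut A R) W a b‖ₑ ^ s ≤ ‖Gr A W a b‖ₑ ^ s +
      ∑ w, ∑ w', bt A R s w w' * (‖Gr (cut A R) W a w‖ₑ ^ s * ‖Gr A W w' b‖ₑ ^ s) := by
  conv_lhs => rw [Gr_cut hA hW R a b]
  refine (ENNReal.rpow_le_rpow (enorm_add_le _ _) hs.le).trans ?_
  refine (ENNReal.rpow_add_le_add_rpow _ _ hs.le hs1).trans ?_
  gcongr
  exact corr_le hA hW hs hs1 R a b

end P365X
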