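import Vale.Agent.P365.X3.Step
import Vale.Agent.P365.X.Green

set_option linter.all false

/-!
# P365 / X3 / Hyp: the single-site inputs for regular laws (X2: a priori bound; two-variable reverse
Hölder inequality from the one-variable one).
-/

namespace P365X

open MeasureTheory ProbabilityTheory Complex Matrix Function P365S6
open P365L P365L.Comp P365L.X
open scoped ENNReal Real

/-! ### the a priori bound -/

section apriori

variable {ι : Type} [Fintype ι] [DecidableEq ι] {A : Matrix ι ι ℝ} {ζ : ℂ} {t : ℝ}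

/-- domination of a regular law by the Cauchy law -/
theorem reg_le_nu {C0 c0 : ℝ} {ν : Measure ℝ} (h : P365L.X.Reg C0 c0 ν) :
    ν ≤ ENNReal.ofReal (π * C0) • P365L.nu := by
  refine h.up.trans (le_of_eq ?_)
  have e : P365L.nu = volume.withDensity (ProbabilityTheory.cauchyPDF 0 1) :=
    ProbabilityTheory.cauchyMeasure_of_scale_ne_zero 0 one_ne_zero
  have hm : Measurable (ProbabilityTheory.cauchyPDF 0 1) :=
    ProbabilityTheory.measurable_cauchyPDF 0 1
  rw [e, ← withDensity_smul _ hm]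
  congr 1
  funext u
  have hC := h.C0pos
  simp only [Pi.smul_apply, smul_eq_mul, ProbabilityTheory.cauchyPDF]
  rw [← ENNReal.ofReal_mul (by positivity)]
  congr 1
  rw [ProbabilityTheory.cauchyPDFReal_def]
  simp only [NNReal.coe_one, mul_one, sub_zero, one_pow]
  have h1 : (0 : ℝ) < 1 + u ^ 2 := by positivity
  rw [add_comm (u ^ 2) 1]
  field_simp

/-- the a priori bound for Cauchy potentials at the two sites, arbitrary frozen potentials
elsewhere -/
theorem apriori_nu (hA : A.IsSymm) (hζ : 0 < ζ.im) (ht : 0 < t) (ht1 : t < 1) (a b : ι)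
    (v : ι → ℝ) :
    (∫⋯∫⁻_{a, b}, gg A ζ t a b ∂fun _ => P365L.nu) v ≤ ENNReal.ofReal (K0 1 t) := by
  obtain ⟨L, hL⟩ : ∃ L : Finset ι, L = {a, b} := ⟨_, rfl⟩
  rw [← hL, lmarginal_eq_mix P365L.nu L (measurable_gg _ _ _)]
  obtain ⟨w, hw⟩ : ∃ w : ι → ℝ, w = fun x => if x ∈ L then 0 else v x := ⟨_, rfl⟩
  have haL : a ∈ L := by
    rw [hL]
    exact Finset.mem_insert_self _ _
  have hbL : b ∈ L := by
    rw [hL]
    exact Finset.mem_insert_of_mem (Finset.mem_singleton_self _)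
  have e1 : ∀ v' : ι → ℝ, gg A ζ t a b (mix L v' v) =
      ENNReal.ofReal ((hs (GT A 1 w ζ Finset.univ (mix L v' 0)) {a} {b}) ^ (t / 2)) := by
    intro v'
    unfold gg hs
    rw [Finset.sum_singleton, Finset.sum_singleton, P365S6.sq_rpow_half (norm_nonneg _),
      ← ENNReal.ofReal_rpow_of_nonneg (norm_nonneg _) ht.le, ofReal_norm_eq_enorm]
    congr 3
    funext x
    unfold Wv Wt mix
    rw [hw]
    by_cases hx : x ∈ L
    · simp [hx]
    · simp [hx]
  have h1 := one_layer_upper (γ := 1) (A := A) (ζ := ζ) hA one_pos hζ ht ht1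
    (Finset.subset_univ L) {a} {b} w 0
  simp_rw [e1]
  refine h1.trans (ENNReal.ofReal_le_ofReal ?_)
  have hLT : Disjoint L (Finset.univ \ L) := Finset.disjoint_sdiff
  have b3 : hs (GT A 1 w ζ (Finset.univ \ L) 0) L {b} ≤ (1 / 1) ^ 2 := by
    rw [_root_.one_div_pow]
    exact hs_column_le hA one_pos hζ w 0 hLT hbL
  have b1 : hs (GT A 1 w ζ (Finset.univ \ L) 0) {a} {b} ≤ (1 / 1) ^ 2 :=
    (hs_mono _ (Finset.singleton_subset_iff.2 haL) (Finset.Subset.refl _)).trans b3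
  have b2 : hs (GT A 1 w ζ (Finset.univ \ L) 0) {a} L ≤ (1 / 1) ^ 2 := by
    rw [hs_comm (fun x y => GT_symm hA (Finset.univ \ L) 0 x y), _root_.one_div_pow]
    exact hs_column_le hA one_pos hζ w 0 hLT haL
  have hp2 : 0 ≤ t / 2 := by positivity
  have hγ1 : (0 : ℝ) ≤ 1 / 1 := by norm_num
  have c1 := Real.rpow_le_rpow (hs_nonneg _ _ _) b1 hp2
  have c2 := Real.rpow_le_rpow (hs_nonneg _ _ _) b2 hp2
  have c3 := Real.rpow_le_rpow (hs_nonneg _ _ _) b3 hp2
  rw [P365S6.sq_rpow_half hγ1] at c1 c2 c3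
  have hCK := CK_nonneg ht ht1
  have hg : 0 ≤ CK t * (2 * (1 : ℝ)) ^ t := by positivity
  unfold K0
  refine add_le_add c1 ?_
  exact mul_le_mul (mul_le_mul_of_nonneg_left c2 hg) c3 (Real.rpow_nonneg (hs_nonneg _ _ _) _)
    (by positivity)

/-- **(X2)** -/
theorem apriori {C0 c0 : ℝ} {ν : Measure ℝ} (h : P365L.X.Reg C0 c0 ν) (hA : A.IsSymm)
    (hζ : 0 < ζ.im) (ht : 0 < t) (ht1 : t < 1) (a b : ι) (v : ι → ℝ) :
    (∫⋯∫⁻_{a, b}, gg A ζ t a b ∂fun _ => ν) v ≤
      (1 + ENNReal.ofReal (π * C0)) ^ 2 * ENNReal.ofReal (K0 1 t) := by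
  have := h.prob
  have h0 : ν ≤ (1 + ENNReal.ofReal (π * C0)) • P365L.nu := by
    refine (reg_le_nu h).trans ?_
    rw [add_smul, one_smul]
    exact Measure.le_add_left le_rfl
  refine (lmarginal_dom h0 (measurable_gg t a b) ({a, b} : Finset ι) v).trans ?_
  gcongr
  · exact le_self_add
  · exact Finset.card_le_two
  · exact apriori_nu hA hζ ht ht1 a b v

end apriori

/-! ### reverse Hölder in several variables -/

/-- tensorization of the reverse Hölder inequality -/
theorem rh_tensor {α β : Type*} [MeasurableSpace α] [MeasurableSpace β] (μ : Measure α)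
    (τ : Measure β) [SFinite μ] [SFinite τ] {f : α → β → ℝ≥0∞} (hf : Measurable (uncurry f))
    {K : ℝ≥0∞} (h : ∀ y, ∫⁻ u, f u y ^ (2 : ℝ) ∂μ ≤ K * (∫⁻ u, f u y ∂μ) ^ (2 : ℝ)) :
    ∫⁻ u, (∫⁻ y, f u y ∂τ) ^ (2 : ℝ) ∂μ ≤ K * (∫⁻ y, ∫⁻ u, f u y ∂μ ∂τ) ^ (2 : ℝ) := by
  have hf1 : ∀ u, Measurable (f u) := fun u => hf.comp measurable_prodMk_left
  have hf2 : ∀ y, Measurable fun u => f u y := fun y => hf.comp measurable_prodMk_right
  obtain ⟨J, hJ⟩ : ∃ J : β → ℝ≥0∞, J = fun y => ∫⁻ u, f u y ∂μ := ⟨_, rfl⟩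
  have hJm : Measurable J := by
    rw [hJ]
    exact Measurable.lintegral_prod_left' (f := fun p : α × β => f p.1 p.2) hf
  have hpair : ∀ y y', ∫⁻ u, f u y * f u y' ∂μ ≤ K * (J y * J y') := by
    intro y y'
    have h1 := ENNReal.lintegral_mul_le_Lp_mul_Lq μ (p := 2) (q := 2) (by constructor <;> norm_num)
      (hf2 y).aemeasurable (hf2 y').aemeasurable
    refine h1.trans ?_
    calc (∫⁻ u, f u y ^ (2 : ℝ) ∂μ) ^ (1 / 2 : ℝ) * (∫⁻ u, f u y' ^ (2 : ℝ) ∂μ) ^ (1 / 2 : ℝ)
        ≤ (K * (∫⁻ u, f u y ∂μ) ^ (2 : ℝ)) ^ (1 / 2 : ℝ) *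
          (K * (∫⁻ u, f u y' ∂μ) ^ (2 : ℝ)) ^ (1 / 2 : ℝ) := by
          gcongr
          · exact h y
          · exact h y'
      _ = K * (J y * J y') := by
          rw [ENNReal.mul_rpow_of_nonneg _ _ (by norm_num),
            ENNReal.mul_rpow_of_nonneg _ _ (by norm_num), ← ENNReal.rpow_mul, ← ENNReal.rpow_mul]
          have h2 : (2 : ℝ) * (1 / 2) = 1 := by norm_num
          rw [h2, ENNReal.rpow_one, ENNReal.rpow_one, hJ]
          have h3 : K = K ^ (1 / 2 : ℝ) * K ^ (1 / 2 : ℝ) := by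
            rw [← ENNReal.rpow_add_of_nonneg _ _ (by norm_num) (by norm_num)]
            norm_num
          conv_rhs => rw [h3]
          ring
  have hsq : ∀ g : β → ℝ≥0∞, Measurable g →
      (∫⁻ y, g y ∂τ) ^ (2 : ℝ) = ∫⁻ y, ∫⁻ y', g y * g y' ∂τ ∂τ := by
    intro g hg
    have h1 : ∀ y, ∫⁻ y', g y * g y' ∂τ = g y * ∫⁻ y', g y' ∂τ := fun y =>
      lintegral_const_mul _ hg
    simp_rw [h1]
    rw [lintegral_mul_const _ hg, ENNReal.rpow_two, sq]
  have h1 : ∀ u, (∫⁻ y, f u y ∂τ) ^ (2 : ℝ) = ∫⁻ y, ∫⁻ y', f u y * f u y' ∂τ ∂τ := fun u =>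
    hsq (f u) (hf1 u)
  simp_rw [h1]
  have hm3 : Measurable fun p : (α × β) × β => f p.1.1 p.1.2 * f p.1.1 p.2 := by
    have ha : Measurable fun p : (α × β) × β => (p.1.1, p.1.2) := measurable_fst
    have hb : Measurable fun p : (α × β) × β => (p.1.1, p.2) :=
      (measurable_fst.comp measurable_fst).prodMk measurable_snd
    exact (hf.comp ha).mul (hf.comp hb)
  have hm2 : Measurable fun p : α × β => ∫⁻ y', f p.1 p.2 * f p.1 y' ∂τ :=
    Measurable.lintegral_prod_right' (f := fun p : (α × β) × β => f p.1.1 p.1.2 * f p.1.1 p.2) hm3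
  rw [lintegral_lintegral_swap (f := fun u y => ∫⁻ y', f u y * f u y' ∂τ) hm2.aemeasurable]
  have h2 : ∀ y, ∫⁻ u, ∫⁻ y', f u y * f u y' ∂τ ∂μ ≤ ∫⁻ y', K * (J y * J y') ∂τ := by
    intro y
    have hm4 : Measurable fun p : α × β => f p.1 y * f p.1 p.2 :=
      ((hf2 y).comp measurable_fst).mul hf
    rw [lintegral_lintegral_swap (f := fun u y' => f u y * f u y') hm4.aemeasurable]
    exact lintegral_mono fun y' => hpair y y'
  refine (lintegral_mono h2).trans (le_of_eq ?_)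
  rw [← hJ, hsq J hJm]
  have h3 : ∀ y, ∫⁻ y', K * (J y * J y') ∂τ = K * ∫⁻ y', J y * J y' ∂τ := fun y =>
    lintegral_const_mul _ (hJm.const_mul _)
  simp_rw [h3]
  rw [lintegral_const_mul _ ?_]
  have h4 : ∀ y, ∫⁻ y', J y * J y' ∂τ = J y * ∫⁻ y', J y' ∂τ := fun y => lintegral_const_mul _ hJm
  simp_rw [h4]
  exact hJm.mul_const _

section rh

variable {ι : Type*} [Fintype ι] [DecidableEq ι]

theorem updateFinset_update {v : ι → ℝ} {L : Finset ι} {a : ι} (ha : a ∉ L) (u : ℝ)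
    (y : L → ℝ) : updateFinset (update v a u) L y = update (updateFinset v L y) a u := by
  funext x
  unfold updateFinset
  by_cases hx : x ∈ L
  · rw [dif_pos hx, update_of_ne (by rintro rfl; exact ha hx), dif_pos hx]
  · rw [dif_neg hx]
    by_cases hxa : x = a
    · subst hxa
      rw [update_self, update_self]
    · rw [update_of_ne hxa, update_of_ne hxa, dif_neg hx]

/-- reverse Hölder inequality for partial integrals from the one-variable inequality -/
theorem rh_lmarginal {ν : Measure ℝ} [IsProbabilityMeasure ν] {F : (ι → ℝ) → ℝ≥0∞}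
    (hF : Measurable F) {K : ℝ≥0∞}
    (h : ∀ v a, ∫⁻ u, F (update v a u) ^ (2 : ℝ) ∂ν ≤ K * (∫⁻ u, F (update v a u) ∂ν) ^ (2 : ℝ))
    (L : Finset ι) (v : ι → ℝ) :
    (∫⋯∫⁻_L, (fun v => F v ^ (2 : ℝ)) ∂fun _ => ν) v ≤
      K ^ L.card * ((∫⋯∫⁻_L, F ∂fun _ => ν) v) ^ (2 : ℝ) := by
  have hF2 : Measurable fun v => F v ^ (2 : ℝ) := hF.pow_const _
  induction L using Finset.induction_on generalizing v with
  | empty => simp
  | insert a L ha ih =>
    rw [lmarginal_insert _ hF2 ha, lmarginal_insert' _ hF ha, Finset.card_insert_of_notMem ha]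
    obtain ⟨f, hf⟩ : ∃ f : ℝ → (L → ℝ) → ℝ≥0∞,
        f = fun u y => F (update (updateFinset v L y) a u) := ⟨_, rfl⟩
    have hfm : Measurable (uncurry f) := by
      rw [hf]
      refine hF.comp ?_
      refine measurable_pi_lambda _ fun x => ?_
      by_cases hx : x = a
      · subst hx
        simp only [update_self]
        exact measurable_fst
      · simp only [update_of_ne hx]
        have h1 : Measurable fun y : L → ℝ => updateFinset v L y := measurable_updateFinset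
        exact (measurable_pi_apply x).comp (h1.comp measurable_snd)
    have e1 : ∀ u, (∫⋯∫⁻_L, F ∂fun _ => ν) (update v a u) =
        ∫⁻ y, f u y ∂(Measure.pi fun _ : L => ν) := by
      intro u
      unfold lmarginal
      refine lintegral_congr fun y => ?_
      rw [hf, updateFinset_update ha]
    have e2 : (∫⋯∫⁻_L, (fun x => ∫⁻ xᵢ, F (update x a xᵢ) ∂ν) ∂fun _ => ν) v =
        ∫⁻ y, ∫⁻ u, f u y ∂ν ∂(Measure.pi fun _ : L => ν) := by
      unfold lmarginal
      rw [hf]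
    have e3 := rh_tensor ν (Measure.pi fun _ : L => ν) hfm (K := K) (fun y => by
      rw [hf]
      exact h (updateFinset v L y) a)
    have hm : Measurable fun u => (∫⁻ y, f u y ∂(Measure.pi fun _ : L => ν)) ^ (2 : ℝ) :=
      (Measurable.lintegral_prod_right' (f := fun p : ℝ × (L → ℝ) => f p.1 p.2) hfm).pow_const _
    calc ∫⁻ u, (∫⋯∫⁻_L, (fun v => F v ^ (2 : ℝ)) ∂fun _ => ν) (update v a u) ∂ν
        ≤ ∫⁻ u, K ^ L.card * (∫⁻ y, f u y ∂(Measure.pi fun _ : L => ν)) ^ (2 : ℝ) ∂ν := by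
          refine lintegral_mono fun u => ?_
          refine (ih (update v a u)).trans ?_
          rw [e1]
      _ = K ^ L.card * ∫⁻ u, (∫⁻ y, f u y ∂(Measure.pi fun _ : L => ν)) ^ (2 : ℝ) ∂ν :=
          lintegral_const_mul _ hm
      _ ≤ K ^ L.card * (K *
          (∫⁻ y, ∫⁻ u, f u y ∂ν ∂(Measure.pi fun _ : L => ν)) ^ (2 : ℝ)) := by
          gcongr
      _ = _ := by
          rw [e2, pow_succ]
          ring

end rh

/-! ### the inputs for regular laws -/

theorem update_Wv {ι : Type*} [DecidableEq ι] (ζ : ℂ) (v : ι → ℝ) (a : ι) (u : ℝ) :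
    update (Wv ζ v) a (-ζ + (((1 : ℝ) * u : ℝ) : ℂ)) = Wv ζ (update v a u) := by
  funext x
  unfold Wv
  by_cases hx : x = a
  · subst hx
    rw [update_self, update_self, one_mul]
    ring
  · rw [update_of_ne hx, update_of_ne hx]

/-- the constant of the criterion -/
noncomputable def CX (C0 c0 s : ℝ) : ℝ≥0∞ :=
  (1 + ENNReal.ofReal (π * C0)) ^ 2 * (ENNReal.ofReal (K0 1 s) + ENNReal.ofReal (K0 1 (2 * s))) +
    (1 + CR1 C0 c0 s ^ 2) ^ 2

theorem CX_ne_top {C0 c0 s : ℝ} (hc : 0 < c0) (hs : s < 1 / 4) : CX C0 c0 s ≠ ∞ := by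
  unfold CX
  have h1 := CR1_ne_top (C0 := C0) hc hs
  finiteness

/-- **the single-site inputs hold for regular laws**, with a constant depending only on the class -/
theorem Hyp.of_reg {C0 c0 s : ℝ} {ν : Measure ℝ} (h : P365L.X.Reg C0 c0 ν) (h0 : 0 < s)
    (h1 : s < 1 / 4) : Hyp ν s (CX C0 c0 s) := by
  have := h.prob
  refine ⟨?_, ?_, ?_⟩
  · intro ι _ _ A hA ζ hζ a b v
    refine (apriori h hA hζ h0 (by linarith) a b v).trans ?_
    unfold CX
    refine le_trans ?_ le_self_add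
    gcongr
    exact le_self_add
  · intro ι _ _ A hA ζ hζ a b v
    refine (apriori h hA hζ (by linarith) (by linarith) a b v).trans ?_
    unfold CX
    refine le_trans ?_ le_self_add
    gcongr
    exact le_add_self
  · intro ι _ _ A hA ζ hζ a b x y v
    have hF := measurable_gg (A := A) (ζ := ζ) s x y
    have key : ∀ (v : ι → ℝ) (a : ι), ∫⁻ u, gg A ζ s x y (update v a u) ^ (2 : ℝ) ∂ν ≤
        (1 + CR1 C0 c0 s ^ 2) * (∫⁻ u, gg A ζ s x y (update v a u) ∂ν) ^ (2 : ℝ) := by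
      intro v a
      have h2 := RHG1 h h0 h1 hA (Wv_neg hζ v) a (w0 := -ζ) (by simpa using hζ) 1 x y
      simp_rw [update_Wv] at h2
      have e : ∀ (q : ℝ) (hq : 0 ≤ q) (u : ℝ),
          ENNReal.ofReal (‖Gr A (Wv ζ (update v a u)) x y‖ ^ q) = gg A ζ q x y (update v a u) := by
        intro q hq u
        unfold gg
        rw [← ENNReal.ofReal_rpow_of_nonneg (norm_nonneg _) hq, ofReal_norm_eq_enorm]
      simp_rw [e (2 * s) (by linarith), e s h0.le] at h2
      simp_rw [gg_sq h0]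
      rw [ENNReal.rpow_two]
      refine h2.trans ?_
      gcongr
      exact le_add_self
    have h2 := rh_lmarginal hF key {a, b} v
    simp_rw [gg_sq h0] at h2
    refine h2.trans ?_
    unfold CX
    gcongr
    refine le_trans ?_ le_add_self
    gcongr
    · exact le_self_add
    · exact Finset.card_le_two

end P365X
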