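import Vale.Agent.P365.X3.Defs
import Mathlib.MeasureTheory.Integral.Marginal

set_option linter.all false

/-!
# P365 / X3 / Marg: partial integration over finitely many coordinates.
-/

namespace P365X

open MeasureTheory ProbabilityTheory Function
open P365L P365L.Comp
open scoped ENNReal

variable {ι : Type*} [Fintype ι] [DecidableEq ι]

/-- partial integration over the coordinates in `L` is resampling -/
theorem lmarginal_eq_mix (ν : Measure ℝ) [IsProbabilityMeasure ν] (L : Finset ι)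
    {F : (ι → ℝ) → ℝ≥0∞} (hF : Measurable F) (v : ι → ℝ) :
    (∫⋯∫⁻_L, F ∂fun _ => ν) v = ∫⁻ v', F (mix L v' v) ∂(Measure.pi fun _ : ι => ν) := by
  unfold lmarginal
  have h := (measurePreserving_marg ν (Subtype.val : L → ι) Subtype.val_injective).lintegral_comp
    (f := fun y : L → ℝ => F (updateFinset v L y)) (hF.comp measurable_updateFinset)
  rw [← h]
  refine lintegral_congr fun v' => ?_
  rfl

theorem lintegral_lmarginal (ν : Measure ℝ) [IsProbabilityMeasure ν] (L : Finset ι)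
    {F : (ι → ℝ) → ℝ≥0∞} (hF : Measurable F) :
    ∫⁻ v, (∫⋯∫⁻_L, F ∂fun _ => ν) v ∂(Measure.pi fun _ : ι => ν) =
      ∫⁻ v, F v ∂(Measure.pi fun _ : ι => ν) := by
  rw [lintegral_mix ν L hF]
  exact lintegral_congr fun v => lmarginal_eq_mix ν L hF v

/-- domination of the single-site law -/
theorem lmarginal_dom {ν ν' : Measure ℝ} [SigmaFinite ν] [SigmaFinite ν'] {C : ℝ≥0∞} (h : ν ≤ C • ν')
    {F : (ι → ℝ) → ℝ≥0∞} (hF : Measurable F) (L : Finset ι) (v : ι → ℝ) :
    (∫⋯∫⁻_L, F ∂fun _ => ν) v ≤ C ^ L.card * (∫⋯∫⁻_L, F ∂fun _ => ν') v := by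
  induction L using Finset.induction_on generalizing v with
  | empty => simp
  | insert i L hi ih =>
    rw [lmarginal_insert _ hF hi, lmarginal_insert _ hF hi, Finset.card_insert_of_notMem hi]
    calc ∫⁻ t, (∫⋯∫⁻_L, F ∂fun _ => ν) (update v i t) ∂ν
        ≤ ∫⁻ t, C ^ L.card * (∫⋯∫⁻_L, F ∂fun _ => ν') (update v i t) ∂ν :=
          lintegral_mono fun t => ih _
      _ ≤ ∫⁻ t, C ^ L.card * (∫⋯∫⁻_L, F ∂fun _ => ν') (update v i t) ∂(C • ν') :=
          lintegral_mono' h le_rfl
      _ = C ^ (L.card + 1) * ∫⁻ t, (∫⋯∫⁻_L, F ∂fun _ => ν') (update v i t) ∂ν' := by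
          have hm : Measurable fun t => (∫⋯∫⁻_L, F ∂fun _ => ν') (update v i t) :=
            (hF.lmarginal (fun _ => ν')).comp (measurable_update v)
          rw [lintegral_smul_measure, lintegral_const_mul _ hm, smul_eq_mul, pow_succ]
          ring

/-- factors which do not depend on the integrated coordinates -/
theorem lmarginal_mul_const (ν : Measure ℝ) [IsProbabilityMeasure ν] (L : Finset ι)
    {F G : (ι → ℝ) → ℝ≥0∞} (hF : Measurable F) (v : ι → ℝ)
    (hG : ∀ v', (∀ x, x ∉ L → v' x = v x) → G v' = G v) :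
    (∫⋯∫⁻_L, (fun v => G v * F v) ∂fun _ => ν) v = G v * (∫⋯∫⁻_L, F ∂fun _ => ν) v := by
  unfold lmarginal
  have hm : Measurable fun y : L → ℝ => F (updateFinset v L y) := hF.comp measurable_updateFinset
  refine Eq.trans ?_ (lintegral_const_mul (G v) hm)
  refine lintegral_congr fun y => ?_
  simp only
  rw [hG]
  intro x hx
  rw [updateFinset, dif_neg hx]

/-- Cauchy–Schwarz -/
theorem lmarginal_mul_le (ν : Measure ℝ) [IsProbabilityMeasure ν] (L : Finset ι)
    {F G : (ι → ℝ) → ℝ≥0∞} (hF : Measurable F) (hG : Measurable G) (v : ι → ℝ) :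
    (∫⋯∫⁻_L, (fun v => F v * G v) ∂fun _ => ν) v ≤
      ((∫⋯∫⁻_L, (fun v => F v ^ (2 : ℝ)) ∂fun _ => ν) v) ^ (1 / 2 : ℝ) *
        ((∫⋯∫⁻_L, (fun v => G v ^ (2 : ℝ)) ∂fun _ => ν) v) ^ (1 / 2 : ℝ) := by
  unfold lmarginal
  have h := ENNReal.lintegral_mul_le_Lp_mul_Lq (Measure.pi fun _ : L => ν)
    (p := 2) (q := 2) (by constructor <;> norm_num)
    (f := fun y : L → ℝ => F (updateFinset v L y)) (g := fun y : L → ℝ => G (updateFinset v L y))
    (hF.comp measurable_updateFinset).aemeasurable (hG.comp measurable_updateFinset).aemeasurable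
  exact h

end P365X
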