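import Vale.Agent.P365.X3.Det

set_option linter.all false

/-!
# P365 / X3 / Step: the finite volume criterion, one step, in expectation.
-/

namespace P365X

open MeasureTheory ProbabilityTheory Complex Matrix
open P365L P365L.Comp
open scoped ENNReal

/-- the fractional power of a Green's function entry -/
noncomputable def gg {ι : Type*} [Fintype ι] [DecidableEq ι] (A : Matrix ι ι ℝ) (ζ : ℂ) (s : ℝ)
    (a b : ι) (v : ι → ℝ) : ℝ≥0∞ := ‖Gr A (Wv ζ v) a b‖ₑ ^ s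

/-- the two single-site inputs: a priori bound for the exponents `s` and `2s`, reverse Hölder
inequality in two variables -/
structure Hyp (ν : Measure ℝ) (s : ℝ) (C : ℝ≥0∞) : Prop where
  ap1 : ∀ {ι : Type} [Fintype ι] [DecidableEq ι] (A : Matrix ι ι ℝ), A.IsSymm → ∀ ζ : ℂ,
    0 < ζ.im → ∀ (a b : ι) (v : ι → ℝ), (∫⋯∫⁻_{a, b}, gg A ζ s a b ∂fun _ => ν) v ≤ C
  ap2 : ∀ {ι : Type} [Fintype ι] [DecidableEq ι] (A : Matrix ι ι ℝ), A.IsSymm → ∀ ζ : ℂ,
    0 < ζ.im → ∀ (a b : ι) (v : ι → ℝ), (∫⋯∫⁻_{a, b}, gg A ζ (2 * s) a b ∂fun _ => ν) v ≤ C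
  rh : ∀ {ι : Type} [Fintype ι] [DecidableEq ι] (A : Matrix ι ι ℝ), A.IsSymm → ∀ ζ : ℂ,
    0 < ζ.im → ∀ (a b x y : ι) (v : ι → ℝ), (∫⋯∫⁻_{a, b}, gg A ζ (2 * s) x y ∂fun _ => ν) v ≤
      C * ((∫⋯∫⁻_{a, b}, gg A ζ s x y ∂fun _ => ν) v) ^ (2 : ℝ)

variable {ι : Type} [Fintype ι] [DecidableEq ι] {A : Matrix ι ι ℝ} {ζ : ℂ} {s : ℝ}
  {ν : Measure ℝ} {C : ℝ≥0∞}

theorem measurable_gg (s : ℝ) (a b : ι) : Measurable (gg A ζ s a b) :=
  (measurable_GrWv a b).enorm.pow_const s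

theorem gg_comm (hA : A.IsSymm) (a b : ι) : gg A ζ s a b = gg A ζ s b a := by
  funext v
  unfold gg
  rw [Gr_symm hA a b]

theorem gg_sq (hs : 0 < s) (a b : ι) (v : ι → ℝ) :
    gg A ζ s a b v ^ (2 : ℝ) = gg A ζ (2 * s) a b v := by
  unfold gg
  rw [← ENNReal.rpow_mul, mul_comm]

theorem EG_eq (hs : 0 ≤ s) (a b : ι) :
    EG A ν ζ s a b = ∫⁻ v, gg A ζ s a b v ∂(Measure.pi fun _ : ι => ν) := by
  unfold EG gg
  refine lintegral_congr fun v => ?_
  rw [← ENNReal.ofReal_rpow_of_nonneg (norm_nonneg _) hs, ofReal_norm_eq_enorm]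

theorem bt_zero (hs : 0 < s) {R : Finset ι} {x y : ι} (h : bd A R x y = 0) :
    bt A R s x y = 0 := by
  unfold bt
  rw [h, Complex.ofReal_zero, enorm_zero, ENNReal.zero_rpow_of_pos hs]

/-- a nonzero bond weight -/
theorem bt_ne {R : Finset ι} {x y : ι} (hs : 0 < s) (h : bt A R s x y ≠ 0) :
    A x y ≠ 0 ∧ ¬ (x ∈ R ↔ y ∈ R) := by
  have h1 : bd A R x y ≠ 0 := fun h' => h (bt_zero hs h')
  unfold bd at h1
  by_cases hxy : x ∈ R ↔ y ∈ R
  · rw [if_pos hxy] at h1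
    exact absurd rfl h1
  · rw [if_neg hxy] at h1
    exact ⟨h1, hxy⟩

theorem bt_le (hs : 0 < s) (h01 : ∀ x y, A x y = 0 ∨ A x y = 1) (R : Finset ι) (x y : ι) :
    bt A R s x y ≤ if A x y ≠ 0 then 1 else 0 := by
  by_cases h : bt A R s x y = 0
  · rw [h]
    exact zero_le
  · have h1 := bt_ne hs h
    rw [if_pos h1.1]
    unfold bt bd
    rw [if_neg h1.2, (h01 x y).resolve_left h1.1, Complex.ofReal_one, enorm_one, ENNReal.one_rpow]

theorem sum_bt_le (hs : 0 < s) (h01 : ∀ x y, A x y = 0 ∨ A x y = 1)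
    (hrow : ∀ x, (Finset.univ.filter fun y => A x y ≠ 0).card ≤ 4) (R : Finset ι) (x : ι) :
    ∑ y, bt A R s x y ≤ 4 := by
  refine (Finset.sum_le_sum fun y _ => bt_le hs h01 R x y).trans ?_
  rw [Finset.sum_boole]
  exact_mod_cast hrow x

/-- dependence of the entries of the cut operator: inside -/
theorem gg_dep_in (hA : A.IsSymm) (hζ : 0 < ζ.im) {R : Finset ι} {a : ι} (ha : a ∈ R) (b : ι)
    {v v' : ι → ℝ} (h : ∀ x ∈ R, v x = v' x) :
    gg (cut A R) ζ s a b v = gg (cut A R) ζ s a b v' := by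
  unfold gg
  rw [Gr_dep (cut_symm hA R) (Wv_neg hζ v) (Wv_neg hζ v') (cut_dec A R)
    (fun x hx => by unfold Wv; rw [h x hx]) ha b]

theorem cut_dec' (A : Matrix ι ι ℝ) (R : Finset ι) : Dec (cut A R) (fun x => x ∉ R) := by
  intro x y h
  rw [cut, if_neg]
  tauto

/-- dependence of the entries of the cut operator: outside -/
theorem gg_dep_out (hA : A.IsSymm) (hζ : 0 < ζ.im) {R : Finset ι} {a : ι} (ha : a ∉ R) (b : ι)
    {v v' : ι → ℝ} (h : ∀ x, x ∉ R → v x = v' x) :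
    gg (cut A R) ζ s a b v = gg (cut A R) ζ s a b v' := by
  unfold gg
  rw [Gr_dep (cut_symm hA R) (Wv_neg hζ v) (Wv_neg hζ v') (cut_dec' A R)
    (fun x hx => by unfold Wv; rw [h x hx]) ha b]

theorem gg_zero (hA : A.IsSymm) (hζ : 0 < ζ.im) (hs : 0 < s) {R : Finset ι} {a b : ι}
    (hab : ¬ (a ∈ R ↔ b ∈ R)) (v : ι → ℝ) : gg (cut A R) ζ s a b v = 0 := by
  unfold gg
  rw [Gr_dec (cut_symm hA R) (Wv_neg hζ v) (cut_dec A R) (by tauto), enorm_zero,
    ENNReal.zero_rpow_of_pos hs]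

/-- pointwise double expansion, one term -/
theorem term1 (hA : A.IsSymm) (hζ : 0 < ζ.im) (hs : 0 < s) (hs1 : s ≤ 1) {R1 R2 : Finset ι}
    (hb : ∀ u ∈ R1, ∀ u', A u u' ≠ 0 → u' ∈ R2) {x y : ι} (hx : x ∈ R1) (hy : y ∉ R2)
    (v : ι → ℝ) (u u' : ι) :
    bt A R1 s u u' * (gg (cut A R1) ζ s x u v * gg A ζ s u' y v) ≤
      ∑ w, ∑ w', bt A R1 s u u' * bt A R2 s w w' *
        (gg (cut A R1) ζ s x u v * gg (cut A R2) ζ s y w v * gg A ζ s w' u' v) := by
  by_cases h1 : bt A R1 s u u' = 0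
  · rw [h1, zero_mul]
    exact zero_le
  by_cases h2 : u ∈ R1
  · have h3 : u' ∈ R2 := hb u h2 u' (bt_ne hs h1).1
    have h4 := expand (W := Wv ζ v) hA (Wv_neg hζ v) hs hs1 R2 (a := y) (b := u') (by tauto)
    have h5 : gg A ζ s u' y v = gg A ζ s y u' v := congrFun (gg_comm hA u' y) v
    calc bt A R1 s u u' * (gg (cut A R1) ζ s x u v * gg A ζ s u' y v)
        ≤ bt A R1 s u u' * (gg (cut A R1) ζ s x u v * ∑ w, ∑ w', bt A R2 s w w' *
          (gg (cut A R2) ζ s y w v * gg A ζ s w' u' v)) := by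
          rw [h5]
          gcongr
          exact h4
      _ = _ := by
          rw [Finset.mul_sum, Finset.mul_sum]
          refine Finset.sum_congr rfl fun w _ => ?_
          rw [Finset.mul_sum, Finset.mul_sum]
          refine Finset.sum_congr rfl fun w' _ => ?_
          ring
  · rw [gg_zero hA hζ hs (by tauto) v, zero_mul, mul_zero]
    exact zero_le

/-- averaging the middle factor -/
theorem term2 [IsProbabilityMeasure ν] (H : Hyp ν s C) (hA : A.IsSymm) (hζ : 0 < ζ.im)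
    (hs : 0 < s) {R1 R2 : Finset ι} (hR : R1 ⊆ R2)
    (hb : ∀ u ∈ R1, ∀ u', A u u' ≠ 0 → u' ∈ R2) {x y : ι} (hx : x ∈ R1) (hy : y ∉ R2)
    (u u' w w' : ι) :
    ∫⁻ v, bt A R1 s u u' * bt A R2 s w w' *
        (gg (cut A R1) ζ s x u v * gg (cut A R2) ζ s y w v * gg A ζ s w' u' v)
        ∂(Measure.pi fun _ : ι => ν) ≤
      C * ((bt A R1 s u u' * ∫⁻ v, gg (cut A R1) ζ s x u v ∂(Measure.pi fun _ : ι => ν)) *
        (bt A R2 s w w' * ∫⁻ v, gg (cut A R2) ζ s y w v ∂(Measure.pi fun _ : ι => ν))) := by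
  have m1 := measurable_gg (A := cut A R1) (ζ := ζ) s x u
  have m2 := measurable_gg (A := cut A R2) (ζ := ζ) s y w
  have m3 := measurable_gg (A := A) (ζ := ζ) s w' u'
  by_cases h1 : bt A R1 s u u' = 0
  · simp [h1]
  by_cases h2 : bt A R2 s w w' = 0
  · simp [h2]
  by_cases h3 : u ∈ R1
  swap
  · simp [gg_zero hA hζ hs (show ¬ (x ∈ R1 ↔ u ∈ R1) by tauto)]
  by_cases h4 : w ∈ R2
  · simp [gg_zero hA hζ hs (show ¬ (y ∈ R2 ↔ w ∈ R2) by tauto)]
  have h5 := bt_ne hs h1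
  have h6 := bt_ne hs h2
  have h7 : u' ∉ R1 := by tauto
  have h8 : u' ∈ R2 := hb u h3 u' h5.1
  have h9 : w' ∈ R2 := by tauto
  have h10 : w' ∉ R1 := fun h => h4 (hb w' h w (by rw [hA.apply]; exact h6.1))
  obtain ⟨L, hL⟩ : ∃ L : Finset ι, L = {w', u'} := ⟨_, rfl⟩
  have hL1 : ∀ z ∈ R1, z ∉ L := by
    intro z hz hzL
    rw [hL, Finset.mem_insert, Finset.mem_singleton] at hzL
    rcases hzL with rfl | rfl
    · exact h10 hz
    · exact h7 hz
  have hL2 : ∀ z, z ∉ R2 → z ∉ L := by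
    intro z hz hzL
    rw [hL, Finset.mem_insert, Finset.mem_singleton] at hzL
    rcases hzL with rfl | rfl
    · exact hz h9
    · exact hz h8
  have m12 : Measurable fun v => gg (cut A R1) ζ s x u v * gg (cut A R2) ζ s y w v := m1.mul m2
  have m123 : Measurable fun v => (gg (cut A R1) ζ s x u v * gg (cut A R2) ζ s y w v) *
      gg A ζ s w' u' v := m12.mul m3
  rw [lintegral_const_mul _ m123, ← lintegral_lmarginal ν L m123]
  have e1 : ∀ v, (∫⋯∫⁻_L, (fun v => (gg (cut A R1) ζ s x u v * gg (cut A R2) ζ s y w v) *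
      gg A ζ s w' u' v) ∂fun _ => ν) v ≤
      (gg (cut A R1) ζ s x u v * gg (cut A R2) ζ s y w v) * C := by
    intro v
    rw [lmarginal_mul_const ν L (F := gg A ζ s w' u')
      (G := fun v => gg (cut A R1) ζ s x u v * gg (cut A R2) ζ s y w v) m3 v]
    · gcongr
      rw [hL]
      exact H.ap1 A hA ζ hζ w' u' v
    · intro v' hv'
      rw [gg_dep_in hA hζ hx u (v := v') (v' := v) (fun z hz => hv' z (hL1 z hz)),
        gg_dep_out hA hζ hy w (v := v') (v' := v) (fun z hz => hv' z (hL2 z hz))]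
  have e2 : ∫⁻ v, gg (cut A R1) ζ s x u v * gg (cut A R2) ζ s y w v
      ∂(Measure.pi fun _ : ι => ν) =
      (∫⁻ v, gg (cut A R1) ζ s x u v ∂(Measure.pi fun _ : ι => ν)) *
        ∫⁻ v, gg (cut A R2) ζ s y w v ∂(Measure.pi fun _ : ι => ν) :=
    lintegral_mul_dep ν R2 m1 m2
      (fun c c' h => gg_dep_in hA hζ hx u fun z hz => h z (hR hz))
      (fun c c' h => gg_dep_out hA hζ hy w h)
  calc bt A R1 s u u' * bt A R2 s w w' * ∫⁻ v, (∫⋯∫⁻_L, (fun v => (gg (cut A R1) ζ s x u v *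
        gg (cut A R2) ζ s y w v) * gg A ζ s w' u' v) ∂fun _ => ν) v ∂(Measure.pi fun _ : ι => ν)
      ≤ bt A R1 s u u' * bt A R2 s w w' * ∫⁻ v, (gg (cut A R1) ζ s x u v *
        gg (cut A R2) ζ s y w v) * C ∂(Measure.pi fun _ : ι => ν) := by
        gcongr with v
        exact e1 v
    _ = _ := by
        rw [lintegral_mul_const _ m12, e2]
        ring

/-- **(step 1)** factorization through the middle layer -/
theorem step1 [IsProbabilityMeasure ν] (H : Hyp ν s C) (hA : A.IsSymm) (hζ : 0 < ζ.im)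
    (hs : 0 < s) (hs1 : s ≤ 1) {R1 R2 : Finset ι} (hR : R1 ⊆ R2)
    (hb : ∀ u ∈ R1, ∀ u', A u u' ≠ 0 → u' ∈ R2) {x y : ι} (hx : x ∈ R1) (hy : y ∉ R2) :
    EG A ν ζ s x y ≤ C * ((∑ u, ∑ u', bt A R1 s u u' * EG (cut A R1) ν ζ s x u) *
      ∑ w, ∑ w', bt A R2 s w w' * EG (cut A R2) ν ζ s y w) := by
  rw [EG_eq hs.le]
  have h1 : ∀ v, gg A ζ s x y v ≤ ∑ u, ∑ u', ∑ w, ∑ w', bt A R1 s u u' * bt A R2 s w w' *
        (gg (cut A R1) ζ s x u v * gg (cut A R2) ζ s y w v * gg A ζ s w' u' v) := by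
    intro v
    have h2 := expand (W := Wv ζ v) hA (Wv_neg hζ v) hs hs1 R1 (a := x) (b := y)
      (by have := @hR y; tauto)
    refine h2.trans (Finset.sum_le_sum fun u _ => Finset.sum_le_sum fun u' _ => ?_)
    exact term1 hA hζ hs hs1 hb hx hy v u u'
  have hm : ∀ u u' w w', Measurable fun v => bt A R1 s u u' * bt A R2 s w w' *
        (gg (cut A R1) ζ s x u v * gg (cut A R2) ζ s y w v * gg A ζ s w' u' v) :=
    fun u u' w w' => (((measurable_gg _ _ _).mul (measurable_gg _ _ _)).mul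
      (measurable_gg _ _ _)).const_mul _
  refine (lintegral_mono h1).trans ?_
  rw [lintegral_finset_sum _ fun u _ => Finset.measurable_sum _ fun u' _ =>
    Finset.measurable_sum _ fun w _ => Finset.measurable_sum _ fun w' _ => hm u u' w w']
  rw [Finset.sum_mul, Finset.mul_sum]
  refine Finset.sum_le_sum fun u _ => ?_
  rw [lintegral_finset_sum _ fun u' _ =>
    Finset.measurable_sum _ fun w _ => Finset.measurable_sum _ fun w' _ => hm u u' w w',
    Finset.sum_mul, Finset.mul_sum]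
  refine Finset.sum_le_sum fun u' _ => ?_
  rw [lintegral_finset_sum _ fun w _ => Finset.measurable_sum _ fun w' _ => hm u u' w w',
    Finset.mul_sum, Finset.mul_sum]
  refine Finset.sum_le_sum fun w _ => ?_
  rw [lintegral_finset_sum _ fun w' _ => hm u u' w w', Finset.mul_sum, Finset.mul_sum]
  refine Finset.sum_le_sum fun w' _ => ?_
  refine (term2 H hA hζ hs hR hb hx hy u u' w w').trans (le_of_eq ?_)
  rw [EG_eq hs.le, EG_eq hs.le]

/-- averaging a product of an outer and a full entry -/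
theorem term3 [IsProbabilityMeasure ν] (H : Hyp ν s C) (hA : A.IsSymm) (hζ : 0 < ζ.im)
    (hs : 0 < s) (R : Finset ι) (v w w' y : ι) :
    ∫⁻ V, gg (cut A R) ζ s v w V * gg A ζ s w' y V ∂(Measure.pi fun _ : ι => ν) ≤
      C * ∫⁻ V, gg A ζ s w' y V ∂(Measure.pi fun _ : ι => ν) := by
  have m1 := measurable_gg (A := cut A R) (ζ := ζ) s v w
  have m2 := measurable_gg (A := A) (ζ := ζ) s w' y
  obtain ⟨L, hL⟩ : ∃ L : Finset ι, L = {v, w} := ⟨_, rfl⟩
  have m12 : Measurable fun V => gg (cut A R) ζ s v w V * gg A ζ s w' y V := m1.mul m2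
  rw [← lintegral_lmarginal ν L m12, ← lintegral_lmarginal ν L m2,
    ← lintegral_const_mul _ (m2.lmarginal (fun _ => ν))]
  refine lintegral_mono fun V => ?_
  refine (lmarginal_mul_le ν L m1 m2 V).trans ?_
  have e1 : (∫⋯∫⁻_L, (fun V => gg (cut A R) ζ s v w V ^ (2 : ℝ)) ∂fun _ => ν) V ≤ C := by
    simp only [gg_sq hs]
    rw [hL]
    exact H.ap2 (cut A R) (cut_symm hA R) ζ hζ v w V
  have e2 : (∫⋯∫⁻_L, (fun V => gg A ζ s w' y V ^ (2 : ℝ)) ∂fun _ => ν) V ≤
      C * ((∫⋯∫⁻_L, gg A ζ s w' y ∂fun _ => ν) V) ^ (2 : ℝ) := by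
    simp only [gg_sq hs]
    rw [hL]
    exact H.rh A hA ζ hζ v w w' y V
  calc ((∫⋯∫⁻_L, (fun V => gg (cut A R) ζ s v w V ^ (2 : ℝ)) ∂fun _ => ν) V) ^ (1 / 2 : ℝ) *
        ((∫⋯∫⁻_L, (fun V => gg A ζ s w' y V ^ (2 : ℝ)) ∂fun _ => ν) V) ^ (1 / 2 : ℝ)
      ≤ C ^ (1 / 2 : ℝ) *
        (C * ((∫⋯∫⁻_L, gg A ζ s w' y ∂fun _ => ν) V) ^ (2 : ℝ)) ^ (1 / 2 : ℝ) := by
        gcongr
    _ = C * (∫⋯∫⁻_L, gg A ζ s w' y ∂fun _ => ν) V := by
        rw [ENNReal.mul_rpow_of_nonneg _ _ (by norm_num), ← ENNReal.rpow_mul]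
        have h1 : (2 : ℝ) * (1 / 2) = 1 := by norm_num
        rw [h1, ENNReal.rpow_one, ← mul_assoc,
          ← ENNReal.rpow_add_of_nonneg _ _ (by norm_num) (by norm_num)]
        norm_num

/-- **(step 2)** back to the full operator -/
theorem step2 [IsProbabilityMeasure ν] (H : Hyp ν s C) (hA : A.IsSymm) (hζ : 0 < ζ.im)
    (hs : 0 < s) (hs1 : s ≤ 1) (R : Finset ι) {v y : ι} (hv : v ∉ R) {S : Finset ι}
    (hS : ∀ w, w ∉ R → ∀ w' ∈ R, A w w' ≠ 0 → w ∈ S) :
    EG (cut A R) ν ζ s v y ≤ EG A ν ζ s v y +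
      C * ∑ w ∈ S, ∑ w' ∈ R, bt A R s w w' * EG A ν ζ s w' y := by
  rw [EG_eq hs.le, EG_eq hs.le]
  have h1 : ∀ V, gg (cut A R) ζ s v y V ≤ gg A ζ s v y V +
      ∑ w ∈ S, ∑ w' ∈ R, bt A R s w w' * (gg (cut A R) ζ s v w V * gg A ζ s w' y V) := by
    intro V
    refine (back (W := Wv ζ V) hA (Wv_neg hζ V) hs hs1 R v y).trans ?_
    refine add_le_add le_rfl (le_of_eq ?_)
    symm
    refine Finset.sum_subset_zero_on_sdiff (Finset.subset_univ _) (fun w hw => ?_) fun w hw => ?_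
    · refine Finset.sum_eq_zero fun w' _ => ?_
      by_cases h2 : bt A R s w w' = 0
      · rw [h2, zero_mul]
      · have h3 := bt_ne hs h2
        have h4 : w ∈ R := by
          by_contra h4
          exact (Finset.mem_sdiff.1 hw).2 (hS w h4 w' (by tauto) h3.1)
        have h5 := gg_zero (ζ := ζ) hA hζ hs (show ¬ (v ∈ R ↔ w ∈ R) by tauto) V
        unfold gg at h5
        rw [h5, zero_mul, mul_zero]
    · refine Finset.sum_subset_zero_on_sdiff (Finset.subset_univ _) (fun w' hw' => ?_)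
        fun w' _ => rfl
      by_cases h2 : bt A R s w w' = 0
      · rw [h2, zero_mul]
      · have h3 := bt_ne hs h2
        have h4 : w' ∉ R := (Finset.mem_sdiff.1 hw').2
        have h5 := gg_zero (ζ := ζ) hA hζ hs (show ¬ (v ∈ R ↔ w ∈ R) by tauto) V
        unfold gg at h5
        rw [h5, zero_mul, mul_zero]
  refine (lintegral_mono h1).trans ?_
  have hm : ∀ w w', Measurable fun V =>
      bt A R s w w' * (gg (cut A R) ζ s v w V * gg A ζ s w' y V) := fun w w' =>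
    ((measurable_gg _ _ _).mul (measurable_gg _ _ _)).const_mul _
  rw [lintegral_add_left (measurable_gg _ _ _)]
  gcongr
  rw [lintegral_finset_sum _ fun w _ => Finset.measurable_sum _ fun w' _ => hm w w',
    Finset.mul_sum]
  refine Finset.sum_le_sum fun w _ => ?_
  rw [lintegral_finset_sum _ fun w' _ => hm w w', Finset.mul_sum]
  refine Finset.sum_le_sum fun w' _ => ?_
  have m12 : Measurable fun V => gg (cut A R) ζ s v w V * gg A ζ s w' y V :=
    (measurable_gg _ _ _).mul (measurable_gg _ _ _)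
  rw [lintegral_const_mul _ m12]
  calc bt A R s w w' * ∫⁻ V, gg (cut A R) ζ s v w V * gg A ζ s w' y V
        ∂(Measure.pi fun _ : ι => ν)
      ≤ bt A R s w w' * (C * ∫⁻ V, gg A ζ s w' y V ∂(Measure.pi fun _ : ι => ν)) := by
        gcongr
        exact term3 H hA hζ hs R v w w' y
    _ = C * (bt A R s w w' * EG A ν ζ s w' y) := by
        rw [EG_eq hs.le]
        ring

/-- **THE STEP** of the finite volume criterion -/
theorem step [IsProbabilityMeasure ν] (H : Hyp ν s C) (hA : A.IsSymm) (hζ : 0 < ζ.im)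
    (hs : 0 < s) (hs1 : s ≤ 1) (h01 : ∀ x y, A x y = 0 ∨ A x y = 1)
    (hrow : ∀ x, (Finset.univ.filter fun y => A x y ≠ 0).card ≤ 4) {R1 R2 T S : Finset ι}
    (hR : R1 ⊆ R2) (hb : ∀ u ∈ R1, ∀ u', A u u' ≠ 0 → u' ∈ R2)
    (hT : ∀ u ∈ R1, ∀ u', u' ∉ R1 → A u u' ≠ 0 → u ∈ T)
    (hS : ∀ w, w ∉ R2 → ∀ w' ∈ R2, A w w' ≠ 0 → w ∈ S) {x y : ι} (hx : x ∈ R1) (hy : y ∉ R2)
    {α : ℝ≥0∞} (hα : ∀ z, (z ∈ R2 ∧ z ∉ R1) ∨ z ∈ S → EG A ν ζ s z y ≤ α) :
    EG A ν ζ s x y ≤ 16 * C * (1 + 4 * C * S.card) * S.card *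
      (∑ u ∈ T, EG (cut A R1) ν ζ s x u) * α := by
  have h1 := step1 H hA hζ hs hs1 hR hb hx hy
  -- the inner factor
  have h2 : ∑ u, ∑ u', bt A R1 s u u' * EG (cut A R1) ν ζ s x u ≤
      4 * ∑ u ∈ T, EG (cut A R1) ν ζ s x u := by
    have h3 : ∑ u, ∑ u', bt A R1 s u u' * EG (cut A R1) ν ζ s x u =
        ∑ u ∈ T, ∑ u', bt A R1 s u u' * EG (cut A R1) ν ζ s x u := by
      symm
      refine Finset.sum_subset (Finset.subset_univ _) fun u _ hu => ?_
      refine Finset.sum_eq_zero fun u' _ => ?_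
      by_cases h4 : bt A R1 s u u' = 0
      · rw [h4, zero_mul]
      · have h5 := bt_ne hs h4
        have h6 : u ∉ R1 := fun h6 => hu (hT u h6 u' (by tauto) h5.1)
        rw [EG_eq hs.le]
        simp [gg_zero (ζ := ζ) hA hζ hs (show ¬ (x ∈ R1 ↔ u ∈ R1) by tauto)]
    rw [h3, Finset.mul_sum]
    refine Finset.sum_le_sum fun u _ => ?_
    rw [← Finset.sum_mul]
    gcongr
    exact sum_bt_le hs h01 hrow R1 u
  -- the outer factor
  have h3 : ∑ w, ∑ w', bt A R2 s w w' * EG (cut A R2) ν ζ s y w ≤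
      4 * (S.card * ((1 + 4 * C * S.card) * α)) := by
    have h4 : ∑ w, ∑ w', bt A R2 s w w' * EG (cut A R2) ν ζ s y w =
        ∑ w ∈ S, ∑ w', bt A R2 s w w' * EG (cut A R2) ν ζ s y w := by
      symm
      refine Finset.sum_subset (Finset.subset_univ _) fun w _ hw => ?_
      refine Finset.sum_eq_zero fun w' _ => ?_
      by_cases h4 : bt A R2 s w w' = 0
      · rw [h4, zero_mul]
      · have h5 := bt_ne hs h4
        have h6 : w ∈ R2 := by
          by_contra h6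
          exact hw (hS w h6 w' (by tauto) h5.1)
        rw [EG_eq hs.le]
        simp [gg_zero (ζ := ζ) hA hζ hs (show ¬ (y ∈ R2 ↔ w ∈ R2) by tauto)]
    rw [h4]
    have h5 : ∀ w ∈ S, ∑ w', bt A R2 s w w' * EG (cut A R2) ν ζ s y w ≤
        4 * ((1 + 4 * C * S.card) * α) := by
      intro w hw
      by_cases hwR : w ∈ R2
      · have h6 : ∀ w', bt A R2 s w w' * EG (cut A R2) ν ζ s y w = 0 := by
          intro w'
          rw [EG_eq hs.le]
          simp [gg_zero (ζ := ζ) hA hζ hs (show ¬ (y ∈ R2 ↔ w ∈ R2) by tauto)]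
        simp only [h6, Finset.sum_const_zero]
        exact zero_le
      · rw [← Finset.sum_mul, EG_comm (cut_symm hA R2)]
        have h7 := step2 (y := y) H hA hζ hs hs1 R2 hwR hS
        have h8 : ∑ w ∈ S, ∑ w' ∈ R2, bt A R2 s w w' * EG A ν ζ s w' y ≤ S.card * (4 * α) := by
          rw [← nsmul_eq_mul]
          refine Finset.sum_le_card_nsmul _ _ _ fun z _ => ?_
          have h9 : ∀ w' ∈ R2, bt A R2 s z w' * EG A ν ζ s w' y ≤ bt A R2 s z w' * α := by
            intro w' hw'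
            by_cases h10 : bt A R2 s z w' = 0
            · rw [h10, zero_mul, zero_mul]
            · have h11 := bt_ne hs h10
              have h12 : z ∉ R2 := by tauto
              have h13 : w' ∉ R1 := fun h => h12 (hb w' h z (by rw [hA.apply]; exact h11.1))
              gcongr
              exact hα w' (Or.inl ⟨hw', h13⟩)
          refine (Finset.sum_le_sum h9).trans ?_
          rw [← Finset.sum_mul]
          gcongr
          exact (Finset.sum_le_univ_sum_of_nonneg fun _ => zero_le).trans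
            (sum_bt_le hs h01 hrow R2 z)
        have h9 : EG (cut A R2) ν ζ s w y ≤ (1 + 4 * C * S.card) * α := by
          refine h7.trans ?_
          calc EG A ν ζ s w y + C * ∑ w ∈ S, ∑ w' ∈ R2, bt A R2 s w w' * EG A ν ζ s w' y
              ≤ α + C * (S.card * (4 * α)) := by
                gcongr
                exact hα w (Or.inr hw)
            _ = _ := by ring
        gcongr
        exact sum_bt_le hs h01 hrow R2 w
    refine (Finset.sum_le_sum h5).trans (le_of_eq ?_)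
    rw [Finset.sum_const, nsmul_eq_mul]
    ring
  calc EG A ν ζ s x y ≤ C * ((∑ u, ∑ u', bt A R1 s u u' * EG (cut A R1) ν ζ s x u) *
      ∑ w, ∑ w', bt A R2 s w w' * EG (cut A R2) ν ζ s y w) := h1
    _ ≤ C * ((4 * ∑ u ∈ T, EG (cut A R1) ν ζ s x u) *
      (4 * (S.card * ((1 + 4 * C * S.card) * α)))) := by gcongr
    _ = _ := by ring

end P365X
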